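import Vale.Agent.N323D.Main

/-!
# P323: PP does not even give dependent choice along `ω₁`

`ZF` is a first-order theory and `pp 0`, `ac 0`, `dc 0`, `dc1 0` are sentences in the sense of
Mathlib; `dc1 0` is `DC_{ω₁}`.
(1) `pp 0 ⟹ dc1 0` is not a consequence of `ZF`;
(2) `ac 0 ⟹ dc1 0` and (3) `pp 0 ⟹ dc 0` are consequences of `ZF`;
(4) a countable transitive set with the true membership is a model of ZF, PP and not `DC_{ω₁}`.
-/

namespace Vale.Agent.Results.P323.A0NoDC1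

open FirstOrder FirstOrder.Language Vale.Agent.P323.Z Vale.Agent.N323C.S Vale.Agent.N323D

theorem result :
    ¬ ZF ⊨ᵇ pp 0 ⟹ dc1 0 ∧
    ZF ⊨ᵇ ac 0 ⟹ dc1 0 ∧ ZF ⊨ᵇ pp 0 ⟹ dc 0 ∧
    ∃ T : ZFSet.{0}, (T : Set ZFSet.{0}).Countable ∧ T.IsTransitive ∧
      letI := memStructure fun x y : T => x.1 ∈ y.1
      T ⊨ ZF ∪ {pp 0, dc1.not 0} :=
  Vale.Agent.N323D.main.2

end Vale.Agent.Results.P323.A0NoDC1
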