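import Vale.Agent.N323C.Main

/-!
# P323: principles that can hold together with PP and the failure of AC

`Th` is a first-order theory in the sense of Mathlib.
`Th` is ZF with PP, not AC, choice for families indexed by ordinals, PP for partitions, DC, the
dual Cantor-Schröder-Bernstein theorem, small violations of choice with seed `P(κ)`, the
Kinna-Wagner principle and the ordering principle.
(1) `Th` has a model;
(2) there is such a model which is a countable transitive set with the true membership.
-/

namespace Vale.Agent.Results.P323.A0Principles

open FirstOrder FirstOrder.Language Vale.Agent.P323.Z Vale.Agent.N323C.S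

theorem result :
    Th.IsSatisfiable ∧
    ∃ T : ZFSet.{0}, (T : Set ZFSet.{0}).Countable ∧ T.IsTransitive ∧
      letI := memStructure fun x y : T => x.1 ∈ y.1
      T ⊨ Th :=
  Vale.Agent.N323C.main.2

end Vale.Agent.Results.P323.A0Principles
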