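import Vale.Agent.N323.Main

/-!
# P323: countable transitive models of ZF + PP + not AC with ZFC in a rank segment

For every countable transitive set `A` there is a countable transitive set `T` such that
`(T, ∈)` is a model of ZF + PP + not AC, with a rank initial segment `W` (a transitive member of
`T` that contains every subset in `T` of each of its members) such that `A ∈ W`, `(W, ∈)` is a
model of ZFC, and `(W, ∈)` embeds elementarily into the universe of sets by a map fixing `A`
pointwise.
-/

namespace Vale.Agent.Results.P323.A0Transitive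

open Vale.Agent.P323.Z

theorem result :
    ∀ A : ZFSet.{0}, A.IsTransitive → (A : Set ZFSet.{0}).Countable →
      ∃ T W : ZFSet.{0}, (T : Set ZFSet.{0}).Countable ∧ T.IsTransitive ∧
        IsZFModel (fun x y : T => x.1 ∈ y.1) ∧ PP (fun x y : T => x.1 ∈ y.1) ∧
        ¬ AC (fun x y : T => x.1 ∈ y.1) ∧
        A ∈ W ∧ W ∈ T ∧ W.IsTransitive ∧ (∀ x ∈ W, ∀ y ∈ T, y ⊆ x → y ∈ W) ∧
        IsZFModel (fun x y : W => x.1 ∈ y.1) ∧ AC (fun x y : W => x.1 ∈ y.1) ∧
        ∃ j : W → ZFSet.{0}, (∀ a : W, a.1 ∈ A → j a = a.1) ∧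
          ∀ (n : ℕ) (φ : LSet.BoundedFormula Empty n) (v : Fin n → W),
            Sat (fun x y : W => x.1 ∈ y.1) φ v ↔
              Sat (fun x y : ZFSet.{0} => x ∈ y) φ (fun i => j (v i)) :=
  Vale.Agent.N323.exists_transitive

end Vale.Agent.Results.P323.A0Transitive
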